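import Vale.Agent.P257.H314.Assemble
import Vale.Agent.P251.S.Loc

/-!
# P261: `L_{K(n)} S ⊗ V(n) = 0`

`X ⊗ V` is local if `X` is local and `V` is a Smith-Toda complex; it is zero if moreover `V` is
acyclic.
-/

open CategoryTheory MonoidalCategory Limits Pretriangulated MonObj

universe v u

set_option linter.unusedSectionVars false

namespace Vale.Agent.P261.H292

open Vale.Agent.P251 Vale.Agent.P251.T Vale.Agent.P251.S Vale.Agent.P257.H314

variable {T : Type u} [Category.{v} T] [Preadditive T] [HasZeroObject T]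
    [HasShift T ℤ] [∀ n : ℤ, (shiftFunctor T n).Additive] [Pretriangulated T]
    [MonoidalCategory T] [SymmetricCategory T] [TensorTriangulated T] [HasCoproducts.{0} T]
    {D : I.MUData T}

/-- `X ⊗ V` is local. -/
theorem isLocal_tensor {K X : T} (hX : IsLocal K X) {p h : ℕ} {V : T} {i : 𝟙_ T ⟶ V}
    (hV : STow D p h i) : IsLocal K (X ⊗ V) := by
  induction hV with
  | one hC =>
    exact IsLocal.ext₃ (dist_whiskerLeft X hC) (hX.of_iso (ρ_ X).symm) (hX.of_iso (ρ_ X).symm)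
  | succ H x hx f hf j δ hΔ ih =>
    exact IsLocal.ext₃ (dist_whiskerLeft X hΔ) ((ih.shift _).of_iso (twI _ X _).symm) ih

/-- (B) `X ⊗ V = 0`. -/
theorem zero_of_local {K X V : T} {p h : ℕ} {i : 𝟙_ T ⟶ V} (hV : STow D p h i)
    (hKV : IsZero (K ⊗ V)) (x : 𝟙_ T ⟶ X) (hx : IsIso (K ◁ x))
    (hX : ∀ W, IsZero (K ⊗ W) → ∀ g : W ⟶ X, g = 0) : IsZero (X ⊗ V) := by
  have h1 : IsLocal K (X ⊗ V) := isLocal_tensor (fun W hW g => hX W hW g) hV
  exact h1.isZero (IsZero.of_iso hKV ((α_ K X V).symm ≪≫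
    whiskerRightIso (asIso (K ◁ x)).symm V ≪≫ whiskerRightIso (ρ_ K) V))

end Vale.Agent.P261.H292
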